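import Vale.Agent.P278.Adapt
import Vale.Agent.P278.VCov
import Vale.Agent.P278.VStr
import Vale.Agent.P278.KahV
import Vale.Agent.P278.Ext
import Vale.Agent.P278.Lift
import Vale.Agent.P278.Phi

namespace Vale.Agent.Results.P278.Splitting

open scoped Manifold ContDiff
open Vale.Agent.P278

universe u v w

theorem result {E : Type u} [NormedAddCommGroup E] [NormedSpace ℂ E] [FiniteDimensional ℂ E]
    {X : Type v} [TopologicalSpace X] [T2Space X] [CompactSpace X] [ConnectedSpace X]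
    [ChartedSpace E X] [IsManifold 𝓘(ℂ, E) ω X]
    (Ω : X → E →L[ℝ] E →L[ℝ] ℝ) (hΩ : IsKahlerForm Ω)
    (k : ℕ) (D : Fin k → (x : X) → Submodule ℂ (TangentSpace 𝓘(ℂ, E) x))
    (hD : ∀ i, IsHolSubbundle (D i)) (hsum : ∀ x, DirectSum.IsInternal fun i => D i x)
    (hint : ∀ I : Finset (Fin k), IsIntegrable fun x => ⨆ i ∈ I, D i x)
    {M : Type w} [TopologicalSpace M] [T2Space M] [SecondCountableTopology M]
    [SimplyConnectedSpace M] [ChartedSpace E M] [IsManifold 𝓘(ℂ, E) ω M]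
    (π : M → X) (hcov : IsCoveringMap π) (hloc : IsLocalDiffeomorph 𝓘(ℂ, E) 𝓘(ℂ, E) ω π) :
    ∃ r : Fin k → ℕ, Decomp (fun i => EuclideanSpace ℂ (Fin (r i))) E
      fun (i : Fin k) (m : M) (v : E) => mfderiv 𝓘(ℂ, E) 𝓘(ℂ, E) π m v ∈ D i (π m) := by
  let D' : Fin k → X → Submodule ℂ E := D
  obtain ⟨r, hr⟩ := exists_adapted (D := D') hD hsum hint
  have hs : Spans D' := spans_of_internal hsum
  have hs' := spans_cov hloc hs
  obtain ⟨cX, hX⟩ := exists_adaptedCS hr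
  have hAX : ∀ ψ ∈ atlas (∀ j, EuclideanSpace ℂ (Fin (r j))) X, Adapted D' ψ := fun ψ hψ => by
    rwa [hX] at hψ
  obtain ⟨cM, hM⟩ := exists_adaptedCS (D := pullD D' π)
    (W := fun j => EuclideanSpace ℂ (Fin (r j))) fun m => by
      obtain ⟨ψ, hψ, hm⟩ := hr (π m)
      obtain ⟨φ, h₁, h₂, -⟩ := adapted_cov hloc hψ hm
      exact ⟨φ, h₁, h₂⟩
  have hAM : ∀ ψ ∈ atlas (∀ j, EuclideanSpace ℂ (Fin (r j))) M, Adapted (pullD D' π) ψ :=
    fun ψ hψ => by rwa [hM] at hψ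
  have := vstr_manifold hAX
  have := vstr_manifold hAM
  obtain ⟨K⟩ := exists_kah (fun ψ hψ => ⟨(hAX ψ hψ).1, (hAX ψ hψ).2.1⟩) hΩ
  have hπ : PCov (∀ j, EuclideanSpace ℂ (Fin (r j))) π := ⟨hcov, fun m => by
    obtain ⟨ψ, hψ, hm⟩ := hr (π m)
    obtain ⟨φ, h₁, h₂, h₃⟩ := adapted_cov hloc hψ hm
    exact ⟨φ, by rw [hM]; exact h₁, ψ, by rw [hX]; exact hψ, h₂, h₃⟩⟩
  exact ⟨r, vstr_decomp hAM hs' (vprod _ (vstr_patl hAM hs') fun i =>
    ext_lift hπ (vstr_patl hAM hs' i) (vstr_patl hAX hs i)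
      (ext_compact (vstr_patl hAX hs i) (pr_idem _ i) K))⟩

end Vale.Agent.Results.P278.Splitting
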